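import Vale.Agent.Lib.P142.Growth
import Vale.Agent.Lib.P142.Interp
import Vale.Agent.Lib.P142.C6a
import Vale.Agent.Lib.P142.C6b

/-!
# P142 (Brennan's conjecture): integrability for `2 ≤ s ≤ 3.85`, and the growth of all integral means
with exponents in `[-2, 0]`

For a holomorphic bijection `φ` of a plane open set `W` onto the unit disc and `2 ≤ s ≤ 3.85` the
integral of `|φ'|^s` over `W` is finite.  For every univalent `f` in the unit disc the integral over
the disc of `|f'|^{-t}` is finite for `0 ≤ t ≤ 1.85`, and the mean of `|f'|^{-t}` over the circle of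
radius `r` is `O((1-r)^{-0.565 t})` for `0 ≤ t ≤ 2` and `O((1-r)^{-0.54 t})` for `0 ≤ t ≤ 1.85`.
-/

open Complex MeasureTheory Set Metric Filter Asymptotics

namespace Vale.Agent.Results.P142.BrennanRange

open Vale.Agent.Lib.P142 Vale.Agent.Lib.P142.Chk

theorem result :
    (∀ (W : Set ℂ) (φ : ℂ → ℂ), IsOpen W → DifferentiableOn ℂ φ W → BijOn φ W (ball 0 1) →
      ∀ s ∈ Icc (2 : ℝ) (77 / 20), ∫⁻ z in W, ENNReal.ofReal (‖deriv φ z‖ ^ s) < ⊤) ∧
    ∀ f : ℂ → ℂ, DifferentiableOn ℂ f (ball 0 1) → InjOn f (ball 0 1) →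
      (∀ t ∈ Icc (0 : ℝ) (37 / 20),
        ∫⁻ z in ball 0 1, ENNReal.ofReal (‖deriv f z‖ ^ (-t)) < ⊤) ∧
      (∀ t ∈ Icc (0 : ℝ) (37 / 20),
        (fun r : ℝ => ∫ θ in (-Real.pi)..Real.pi, ‖deriv f (r * exp (θ * I))‖ ^ (-t))
          =O[nhdsWithin 1 (Iio 1)] fun r : ℝ => (1 - r) ^ (-(27 / 50 * t))) ∧
      ∀ t ∈ Icc (0 : ℝ) 2,
        (fun r : ℝ => ∫ θ in (-Real.pi)..Real.pi, ‖deriv f (r * exp (θ * I))‖ ^ (-t))
          =O[nhdsWithin 1 (Iio 1)] fun r : ℝ => (1 - r) ^ (-(113 / 200 * t)) := by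
  refine ⟨?_, ?_⟩
  · intro W φ hW hφ hb s hs
    have h := integrable_domain hW hφ hb (t := 2 - s)
      (fun f hf => integrable_of_growth hf (by norm_num) (by norm_num : (999 / 1000 : ℝ) < 1)
        (growth (by norm_num) d6b_idx d6b_cert hf) (by linarith [hs.2]) (by linarith [hs.1]))
    refine itp_lint (fun z => Real.rpow_nonneg (norm_nonneg _) _) ?_
    simpa using h
  · intro f h1 h2
    have hf : Univ f := ⟨h1, h2⟩
    refine ⟨?_, ?_, ?_⟩
    · intro t ht
      refine itp_lint (fun z => Real.rpow_nonneg (norm_nonneg _) _) ?_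
      exact integrable_of_growth hf (by norm_num) (by norm_num : (999 / 1000 : ℝ) < 1)
        (growth (by norm_num) d6b_idx d6b_cert hf) (by linarith [ht.2]) (by linarith [ht.1])
    · intro t ht
      have h3 := itp_growth hf (t0 := 37 / 20) (β := 999 / 1000) (by norm_num)
        (growth (by norm_num) d6b_idx d6b_cert hf) ht.1 ht.2
      have h4 : (999 / 1000 / (37 / 20) : ℝ) = 27 / 50 := by norm_num
      rw [h4] at h3
      exact h3
    · intro t ht
      have h3 := itp_growth hf (t0 := 2) (β := 113 / 100) (by norm_num)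
        (growth (by norm_num) d6a_idx d6a_cert hf) ht.1 ht.2
      have h4 : (113 / 100 / 2 : ℝ) = 113 / 200 := by norm_num
      rw [h4] at h3
      exact h3

end Vale.Agent.Results.P142.BrennanRange
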