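import Vale.Agent.Lib.P142.Growth
import Vale.Agent.Lib.P142.Final
import Vale.Agent.Lib.P142.C5a
import Vale.Agent.Lib.P142.C5b

/-!
# P142 (Brennan's conjecture): `B_S(-2) ≤ 1.16`, `B_S(-1.8) ≤ 0.995`, and the range `s ≤ 3.8`
-/

open Complex MeasureTheory Set Metric Filter

namespace Vale.Agent.Results.P142.Spectrum116

open Vale.Agent.Lib.P142 Vale.Agent.Lib.P142.Chk

/-- the class `S`: injective holomorphic functions on the unit disc, `f(0) = 0`, `f'(0) = 1` -/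
def ClassS : Set (ℂ → ℂ) :=
  {f | DifferentiableOn ℂ f (ball 0 1) ∧ InjOn f (ball 0 1) ∧ f 0 = 0 ∧ deriv f 0 = 1}

/-- the integral mean `M_t[f'](r) = (1/2π) ∫_{-π}^{π} |f'(r e^{iθ})|^t dθ` -/
noncomputable def M (f : ℂ → ℂ) (t r : ℝ) : ℝ :=
  1 / (2 * Real.pi) * ∫ θ in (-Real.pi)..Real.pi, ‖deriv f ((r : ℂ) * exp ((θ : ℂ) * I))‖ ^ t

/-- `β_f(t) = limsup_{r ↑ 1} log M_t[f'](r) / log (1 / (1 - r))`, as an extended real -/
noncomputable def beta (f : ℂ → ℂ) (t : ℝ) : EReal :=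
  limsup (fun r : ℝ => ((Real.log (M f t r) / Real.log (1 / (1 - r)) : ℝ) : EReal))
    (nhdsWithin 1 (Iio 1))

/-- the integral means spectrum `B_S(t) = sup_{f ∈ S} β_f(t)` -/
noncomputable def BS (t : ℝ) : EReal := ⨆ f ∈ ClassS, beta f t

theorem M_eq (f : ℂ → ℂ) (t r : ℝ) : M f t r =
    1 / (2 * Real.pi) * ∫ θ in (0 : ℝ)..2 * Real.pi, ‖deriv f (zp r θ)‖ ^ t := by
  have h : Function.Periodic (fun θ : ℝ => ‖deriv f ((r : ℂ) * exp ((θ : ℂ) * I))‖ ^ t)
      (2 * Real.pi) := by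
    intro θ
    have h : exp (((θ + 2 * Real.pi : ℝ) : ℂ) * I) = exp ((θ : ℂ) * I) := by
      push_cast
      rw [add_mul, Complex.exp_add, Complex.exp_two_pi_mul_I, mul_one]
    simp only [h]
  have h2 := h.intervalIntegral_add_eq (-Real.pi) 0
  rw [zero_add] at h2
  unfold M zp
  rw [← h2]
  congr 3
  ring

theorem beta_le {f : ℂ → ℂ} {t β : ℝ} (hβ : 0 ≤ β)
    (h : ∃ C r0 : ℝ, 0 < r0 ∧ r0 < 1 ∧ ∀ r : ℝ, r0 ≤ r → r < 1 →
      ∫ θ in (0 : ℝ)..2 * Real.pi, ‖deriv f (zp r θ)‖ ^ t ≤ C * (1 - r) ^ (-β)) :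
    beta f t ≤ (β : EReal) := by
  obtain ⟨C, r0, hr0, hr1, h⟩ := h
  obtain ⟨K, hK⟩ : ∃ K : ℝ, K = max (1 / (2 * Real.pi) * C) 1 := ⟨_, rfl⟩
  have hK1 : 1 ≤ K := hK ▸ le_max_right _ _
  have hK2 : 1 / (2 * Real.pi) * C ≤ K := hK ▸ le_max_left _ _
  have hpi : (0 : ℝ) ≤ 1 / (2 * Real.pi) := by positivity
  have hlog : Tendsto (fun r : ℝ => Real.log (1 / (1 - r))) (nhdsWithin 1 (Iio 1)) atTop := by
    refine Real.tendsto_log_atTop.comp ?_
    have h1 : Tendsto (fun r : ℝ => 1 - r) (nhdsWithin 1 (Iio 1)) (nhdsWithin 0 (Ioi 0)) := by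
      refine tendsto_nhdsWithin_of_tendsto_nhds_of_eventually_within _ ?_ ?_
      · have h2 : Tendsto (fun r : ℝ => 1 - r) (nhds 1) (nhds (1 - 1)) :=
          (continuous_const.sub continuous_id).tendsto 1
        rw [sub_self] at h2
        exact h2.mono_left nhdsWithin_le_nhds
      · filter_upwards [self_mem_nhdsWithin] with r hr
        exact sub_pos.2 (mem_Iio.1 hr)
    simpa only [one_div, Function.comp_def] using tendsto_inv_nhdsGT_zero.comp h1
  have hev : ∀ᶠ r in nhdsWithin (1 : ℝ) (Iio 1), r0 < r ∧ r < 1 := Ioo_mem_nhdsLT hr1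
  have hup : ∀ᶠ r in nhdsWithin (1 : ℝ) (Iio 1),
      ((Real.log (M f t r) / Real.log (1 / (1 - r)) : ℝ) : EReal) ≤
        ((Real.log K / Real.log (1 / (1 - r)) + β : ℝ) : EReal) := by
    filter_upwards [hev, hlog.eventually_gt_atTop 0] with r hr hL
    refine EReal.coe_le_coe_iff.2 ?_
    have h1 := h r hr.1.le hr.2
    have h3 : 0 < 1 - r := by linarith [hr.2]
    have h4 : 0 < (1 - r) ^ (-β) := Real.rpow_pos_of_pos h3 _
    have h5 : M f t r ≤ K * (1 - r) ^ (-β) := by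
      rw [M_eq]
      calc 1 / (2 * Real.pi) * ∫ θ in (0 : ℝ)..2 * Real.pi, ‖deriv f (zp r θ)‖ ^ t
          ≤ 1 / (2 * Real.pi) * (C * (1 - r) ^ (-β)) := mul_le_mul_of_nonneg_left h1 hpi
        _ = 1 / (2 * Real.pi) * C * (1 - r) ^ (-β) := by ring
        _ ≤ K * (1 - r) ^ (-β) := mul_le_mul_of_nonneg_right hK2 h4.le
    have h0 : 0 ≤ M f t r := by
      rw [M_eq]
      refine mul_nonneg hpi (intervalIntegral.integral_nonneg (by positivity) ?_)
      intro θ _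
      positivity
    have hKlog : 0 ≤ Real.log K := Real.log_nonneg hK1
    rw [div_add' _ _ _ hL.ne']
    refine div_le_div_of_nonneg_right ?_ hL.le
    rcases h0.eq_or_lt with h6 | h6
    · rw [← h6, Real.log_zero]
      positivity
    · have h7 := Real.log_le_log h6 h5
      rw [Real.log_mul (by linarith) h4.ne', Real.log_rpow h3] at h7
      have h8 : Real.log (1 / (1 - r)) = -Real.log (1 - r) := by rw [one_div, Real.log_inv]
      rw [h8]
      linarith
  have hlim : Tendsto (fun r : ℝ => ((Real.log K / Real.log (1 / (1 - r)) + β : ℝ) : EReal))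
      (nhdsWithin 1 (Iio 1)) (nhds ((β : ℝ) : EReal)) := by
    have h9 : Tendsto (fun r : ℝ => Real.log K / Real.log (1 / (1 - r)) + β)
        (nhdsWithin 1 (Iio 1)) (nhds β) := by
      have := (hlog.const_div_atTop (Real.log K)).add_const β
      rwa [zero_add] at this
    exact (continuous_coe_real_ereal.tendsto β).comp h9
  unfold beta
  rw [← hlim.limsup_eq]
  exact limsup_le_limsup hup

theorem result :
    BS (-2) ≤ ((29 / 25 : ℝ) : EReal) ∧ BS (-(9 / 5)) ≤ ((199 / 200 : ℝ) : EReal) ∧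
    (∀ (W : Set ℂ) (φ : ℂ → ℂ), IsOpen W → DifferentiableOn ℂ φ W → BijOn φ W (ball 0 1) →
      ∀ s : ℝ, 2 ≤ s → s ≤ 19 / 5 →
        IntegrableOn (fun z : ℂ => ‖deriv φ z‖ ^ s) W volume) := by
  refine ⟨?_, ?_, ?_⟩
  · refine iSup₂_le fun f hf => ?_
    exact beta_le (by norm_num) (growth (by norm_num) d5a_idx d5a_cert ⟨hf.1, hf.2.1⟩)
  · refine iSup₂_le fun f hf => ?_
    exact beta_le (by norm_num) (growth (by norm_num) d5b_idx d5b_cert ⟨hf.1, hf.2.1⟩)
  · intro W φ hW hφ hb s hs1 hs2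
    have h := integrable_domain hW hφ hb (t := 2 - s)
      (fun f hf => integrable_of_growth hf (by norm_num) (by norm_num : (199 / 200 : ℝ) < 1)
        (growth (by norm_num) d5b_idx d5b_cert hf) (by linarith) (by linarith))
    simpa using h

end Vale.Agent.Results.P142.Spectrum116
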